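import Vale.Agent.P123.Main2
import Vale.Agent.P123.Sharp

universe u

namespace Vale.Agent.Results.P123.BestConstant

/-- The best constant of the numerical range inequality is `2`: the number `2` is the least real
`C` such that `‖P(A)‖ ≤ C * sup_{z ∈ W(A)} |P(z)|` for every nonzero complex Hilbert space `H`,
every bounded operator `A` on `H` and every polynomial `P`. -/
theorem result :
    IsLeast {C : ℝ | ∀ (H : Type u) [NormedAddCommGroup H] [InnerProductSpace ℂ H]
      [CompleteSpace H] [Nontrivial H] (A : H →L[ℂ] H) (P : Polynomial ℂ),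
      ‖Polynomial.aeval A P‖ ≤
        C * sSup {r : ℝ | ∃ x : H, ‖x‖ = 1 ∧ r = ‖P.eval (inner ℂ x (A x))‖}} 2 := by
  constructor
  · intro H _ _ _ _ A P
    refine Vale.P123.crouzeix_two H A P _ fun x hx => le_csSup ?_ ⟨x, hx, rfl⟩
    have hc : IsCompact (Metric.closedBall (0 : ℂ) ‖A‖) := isCompact_closedBall _ _
    obtain ⟨B, hB⟩ := hc.exists_bound_of_continuousOn (f := fun z => P.eval z) P.continuous.continuousOn
    refine ⟨B, ?_⟩
    rintro r ⟨y, hy, rfl⟩
    refine hB _ ?_
    rw [mem_closedBall_zero_iff]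
    refine (norm_inner_le_norm _ _).trans ?_
    rw [hy, one_mul]
    exact (A.le_opNorm y).trans (by rw [hy, mul_one])
  · intro C hC
    obtain ⟨E, _, _, _, _, A, hA1, hA2⟩ := Vale.P123.sharp_example.{u}
    have h := hC E A Polynomial.X
    rw [Polynomial.aeval_X] at h
    have hS2 : ∀ r ∈ {r : ℝ | ∃ x : E, ‖x‖ = 1 ∧
        r = ‖(Polynomial.X : Polynomial ℂ).eval (inner ℂ x (A x))‖}, r ≤ 1 / 2 := by
      rintro r ⟨x, hx, rfl⟩
      rw [Polynomial.eval_X]
      exact hA2 x hx
    have hS0 : 0 ≤ sSup {r : ℝ | ∃ x : E, ‖x‖ = 1 ∧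
        r = ‖(Polynomial.X : Polynomial ℂ).eval (inner ℂ x (A x))‖} := Real.sSup_nonneg (by
      rintro r ⟨x, hx, rfl⟩
      exact norm_nonneg _)
    have hS1 := Real.sSup_le hS2 (by norm_num)
    by_contra hcon
    push Not at hcon
    rcases le_or_gt C 0 with hC0 | hC0
    · nlinarith [mul_nonneg (neg_nonneg.2 hC0) hS0]
    · nlinarith [mul_le_mul_of_nonneg_left hS1 hC0.le]

end Vale.Agent.Results.P123.BestConstant
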