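import Vale.Agent.P123.Fin11

universe u

namespace Vale.Agent.Results.P123.SevenThirds

/-- The Crouzeix constant is at most `7 / 3`. -/
theorem result (H : Type u) [NormedAddCommGroup H] [InnerProductSpace ℂ H] [Nontrivial H]
    (A : H →L[ℂ] H) (P : Polynomial ℂ) (M : ℝ)
    (hM : ∀ x : H, ‖x‖ = 1 → ‖P.eval (inner ℂ x (A x))‖ ≤ M) :
    ‖Polynomial.aeval A P‖ ≤ 7 / 3 * M :=
  Vale.P123.crouzeix_seven_thirds H A P M hM

end Vale.Agent.Results.P123.SevenThirds
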